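import Vale.Agent.P057.AsympTop

/-!
For `n ≥ 3` and `2 ^ (n - 1) < k`: large subsets of `[N]` without `k`-term progressions, with a
smaller constant than `n * 2 ^ ((n - 1) / 2)` in the Rankin exponent, and a still smaller one
for `k ≥ 3 * 2 ^ (n - 2) + 2`.
-/

namespace Vale.Agent.P057

open Finset Real Filter Topology

theorem choose_succ_lt : ∀ d, 2 ≤ d → ∀ r, (d + 1).choose r < 2 ^ d := by
  intro d hd
  induction d, hd using Nat.le_induction with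
  | base =>
    intro r
    have := Nat.choose_le_middle r 3
    norm_num at this ⊢
    omega
  | succ d hd ih =>
    intro r
    have h2 : 2 ^ (d + 1) = 2 ^ d + 2 ^ d := by rw [pow_succ]; ring
    rcases r with _ | r
    · rw [Nat.choose_zero_right]
      have := Nat.two_pow_pos d
      omega
    · rw [Nat.choose_succ_succ']
      have := ih r
      have := ih (r + 1)
      omega

theorem chain (n k b : ℕ) (hb2 : 2 ≤ b) (hcore : Core k (2 ^ (n - 2)) b) (hk : 2 * 2 ^ (n - 2) < k) :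
    ∀ j, j + 3 ≤ n →
    ∃ K : ℝ, ∃ e : ℕ, 0 < K ∧ K ^ (j + 2) = logb 2 (b : ℝ) * 2 ^ e ∧
      2 * e + (j + 2) * (j + 1) = 4 + 2 * j * n ∧ Good k (2 ^ (n - (j + 2))) (j + 2) K := by
  have hcpos : 0 < logb 2 (b : ℝ) := logb_pos (by norm_num) (by exact_mod_cast hb2)
  intro j
  induction j with
  | zero =>
    intro _
    refine ⟨√(2 * logb 2 (b : ℝ)), 1, by positivity, ?_, by norm_num, good_two k _ b hb2 hcore⟩
    rw [sq_sqrt (by positivity)]; ring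
  | succ j ih =>
    intro hj
    obtain ⟨K, e, hKp, hKe, he, hgood⟩ := ih (by omega)
    obtain ⟨w, hw⟩ : ∃ w, n = j + 3 + w := ⟨n - (j + 3), by omega⟩
    obtain ⟨K', hK'⟩ : ∃ K', K' = (2 * ((2 ^ w : ℕ) : ℝ) * K ^ (j + 2)) ^ (((j + 3 : ℕ) : ℝ)⁻¹) :=
      ⟨_, rfl⟩
    have hpow : K' ^ (j + 3) = 2 * ((2 ^ w : ℕ) : ℝ) * K ^ (j + 2) := by
      rw [hK']
      exact Real.rpow_inv_natCast_pow (by positivity) (by omega)
    have hK'p : 0 < K' := hK' ▸ rpow_pos_of_pos (by positivity) _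
    refine ⟨K', e + (w + 1), hK'p, ?_, ?_, ?_⟩
    · rw [show j + 1 + 2 = j + 3 by omega, hpow, hKe, pow_add, pow_add]
      push_cast
      ring
    · have h1 : (j + 1 + 2) * (j + 1 + 1) = (j + 2) * (j + 1) + 2 * (j + 2) := by ring
      have h2 : 2 * (j + 1) * n = 2 * j * n + 2 * n := by ring
      omega
    · have hd : 2 ^ (n - (j + 2)) = 2 * 2 ^ w := by
        rw [show n - (j + 2) = w + 1 by omega, pow_succ, mul_comm]
      rw [hd] at hgood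
      have hle : 2 ^ (n - (j + 2)) ≤ 2 ^ (n - 2) := Nat.pow_le_pow_right (by norm_num) (by omega)
      rw [show n - (j + 1 + 2) = w by omega]
      exact good_step k (2 ^ w) (j + 2) K K' Nat.one_le_two_pow (by omega) (by omega) hKp hK'p
        hpow hgood

/-- The bound for a general innermost window. -/
theorem bound_of_core (n k b : ℕ) (hn : 3 ≤ n) (hb2 : 2 ≤ b) (hcore : Core k (2 ^ (n - 2)) b)
    (hk : 2 * 2 ^ (n - 2) < k) (C : ℝ)
    (hC : (n : ℝ) * (2 : ℝ) ^ (((n : ℝ) - 1) / 2) *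
        (logb 2 (12 / 7) * (logb 2 (b : ℝ) / 2 ^ (n - 2))) ^ ((1 : ℝ) / n) < C) :
    ∃ N₀ : ℕ, ∀ N : ℕ, N₀ ≤ N → ∃ A : Finset ℕ, A ⊆ Finset.Icc 1 N ∧
      (∀ a e : ℕ, 0 < e → ∃ i < k, a + i * e ∉ A) ∧
      (N : ℝ) * (2 : ℝ) ^ (-(C * (Real.logb 2 N) ^ ((1 : ℝ) / n))) ≤ (A.card : ℝ) := by
  obtain ⟨j, hj⟩ : ∃ j, n = j + 3 := ⟨n - 3, by omega⟩
  obtain ⟨K₀, e, hK₀p, hKe, he, hgood₀⟩ := chain n k b hb2 hcore hk j (by omega)
  rw [show n - (j + 2) = 1 by omega, pow_one] at hgood₀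
  have hk5 : 5 ≤ k := by
    have : 2 ^ 1 ≤ 2 ^ (n - 2) := Nat.pow_le_pow_right (by norm_num) (by omega)
    omega
  obtain ⟨ρ, hρ⟩ : ∃ ρ, ρ = logb 2 (b : ℝ) / 2 ^ (n - 2) := ⟨_, rfl⟩
  rw [← hρ] at hC
  have hc1 : 0 < logb 2 ((12 : ℝ) / 7) := logb_pos (by norm_num) (by norm_num)
  have hρ0 : 0 ≤ ρ := hρ ▸ div_nonneg (logb_nonneg (by norm_num)
    (by exact_mod_cast (show 1 ≤ b by omega))) (by positivity)
  obtain ⟨K, hKd⟩ : ∃ K, K =
      (2 * logb 2 ((12 : ℝ) / 7) * K₀ ^ (j + 2)) ^ (((j + 3 : ℕ) : ℝ)⁻¹) := ⟨_, rfl⟩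
  have hKp : 0 < K := hKd ▸ rpow_pos_of_pos (by positivity) _
  have hpow : K ^ (j + 3) = 2 * logb 2 ((12 : ℝ) / 7) * K₀ ^ (j + 2) := by
    rw [hKd]
    exact Real.rpow_inv_natCast_pow (by positivity) (by omega)
  have hgood : Good k 1 n K :=
    hj ▸ good_top k (j + 2) K₀ K (by omega) hk5 hK₀p hKp hpow hgood₀
  have hnR : (0 : ℝ) < n := by exact_mod_cast (show 0 < n by omega)
  have hc0 : logb 2 (b : ℝ) = ρ * 2 ^ (n - 2) := by
    rw [hρ, div_mul_cancel₀ _ (by positivity)]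
  have hK : K = (2 : ℝ) ^ (((n : ℝ) - 1) / 2) * (logb 2 (12 / 7) * ρ) ^ ((1 : ℝ) / n) := by
    refine (pow_left_inj₀ hKp.le (by positivity) (show n ≠ 0 by omega)).1 ?_
    have h2 : ((2 : ℝ) ^ (((n : ℝ) - 1) / 2)) ^ n = (2 : ℝ) ^ (n - 2 + (e + 1)) := by
      rw [← rpow_natCast _ n, ← rpow_mul (by norm_num), ← rpow_natCast]
      congr 1
      subst hj
      rw [show j + 3 - 2 = j + 1 by omega]
      have heR : 2 * (e : ℝ) + ((j : ℝ) + 2) * ((j : ℝ) + 1) = 4 + 2 * (j : ℝ) * ((j : ℝ) + 3) := by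
        exact_mod_cast he
      push_cast
      linarith
    rw [mul_pow, h2, one_div, Real.rpow_inv_natCast_pow (by positivity) (by omega),
      show K ^ n = K ^ (j + 3) by rw [hj], hpow, hKe, hc0, pow_add 2 (n - 2), pow_succ]
    ring
  have hnK : (n : ℝ) * K < C := by rw [hK, ← mul_assoc]; exact hC
  obtain ⟨C', hC'⟩ : ∃ C', C' = ((n : ℝ) * K + C) / 2 := ⟨_, rfl⟩
  have hev := (hgood C' (by linarith)).and
    ((tendsto_root n (by omega)).eventually_ge_atTop (1 / (C - C')))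
  obtain ⟨L₀, hL₀⟩ := eventually_atTop.1 hev
  refine ⟨2 ^ L₀, fun N hN => ?_⟩
  have hN0 : N ≠ 0 := by
    have := Nat.two_pow_pos L₀
    omega
  obtain ⟨L, hL⟩ : ∃ L, L = Nat.log 2 N := ⟨_, rfl⟩
  obtain ⟨⟨B, hBsub, hBav, hBcard⟩, hs⟩ := hL₀ L (hL ▸ Nat.le_log_of_pow_le (by norm_num) hN)
  have hLN : 2 ^ L ≤ N := hL ▸ Nat.pow_log_le_self 2 hN0
  have hNL : N < 2 ^ (L + 1) := hL ▸ Nat.lt_pow_succ_log_self (by norm_num) N
  refine ⟨B.image (fun x => x + 1), ?_, ?_, ?_⟩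
  · intro x hx
    obtain ⟨y, hy, rfl⟩ := mem_image.1 hx
    have := mem_range.1 (hBsub hy)
    exact mem_Icc.2 ⟨by omega, by omega⟩
  · intro a f hf
    by_contra hcon
    push Not at hcon
    have hmem : ∀ i < k, a + i * f - 1 ∈ B ∧ 1 ≤ a + i * f := by
      intro i hi
      obtain ⟨y, hy, hyi⟩ := mem_image.1 (hcon i hi)
      exact ⟨(show a + i * f - 1 = y by omega) ▸ hy, by omega⟩
    have hkpos : 1 < k := by omega
    have ha : 1 ≤ a := by have := (hmem 0 (by omega)).2; simpa using this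
    have h := hBav (fun i => a + i * f - 1) (fun i hi => (hmem i hi).1)
      (Polynomial.C (f : ℚ) * Polynomial.X + Polynomial.C ((a : ℚ) - 1))
      ((Polynomial.natDegree_linear_le)) (fun i hi => by
        simp only [Polynomial.eval_add, Polynomial.eval_mul, Polynomial.eval_C, Polynomial.eval_X]
        rw [Nat.cast_sub (hmem i hi).2]
        push_cast
        ring) 1 hkpos
    omega
  · rw [card_image_of_injective _ (fun x y h => Nat.succ_injective h)]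
    refine le_trans ?_ hBcard
    obtain ⟨s, hsd⟩ : ∃ s, s = (L : ℝ) ^ ((1 : ℝ) / n) := ⟨_, rfl⟩
    rw [← hsd] at hs ⊢
    have hsS : s ≤ (Real.logb 2 N) ^ ((1 : ℝ) / n) := by
      rw [hsd]
      refine rpow_le_rpow (Nat.cast_nonneg _) ?_ (by positivity)
      rw [le_logb_iff_rpow_le (by norm_num) (by exact_mod_cast Nat.pos_of_ne_zero hN0), rpow_natCast]
      exact_mod_cast hLN
    rw [div_le_iff₀ (by linarith)] at hs
    have hCpos : 0 ≤ C := le_trans (by positivity) hnK.le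
    have hexp : (1 : ℝ) + -(C * (Real.logb 2 N) ^ ((1 : ℝ) / n)) ≤ -(C' * s) := by
      have := mul_le_mul_of_nonneg_left hsS hCpos
      linarith
    calc (N : ℝ) * (2 : ℝ) ^ (-(C * (Real.logb 2 N) ^ ((1 : ℝ) / n)))
        ≤ (2 : ℝ) ^ (L + 1) * (2 : ℝ) ^ (-(C * (Real.logb 2 N) ^ ((1 : ℝ) / n))) :=
          mul_le_mul_of_nonneg_right (by exact_mod_cast hNL.le) (rpow_nonneg (by norm_num) _)
      _ = (2 : ℝ) ^ L * (2 : ℝ) ^ ((1 : ℝ) + -(C * (Real.logb 2 N) ^ ((1 : ℝ) / n))) := by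
          rw [rpow_add (by norm_num), rpow_one, pow_succ, mul_assoc]
      _ ≤ (2 : ℝ) ^ L * (2 : ℝ) ^ (-(C' * s)) :=
          mul_le_mul_of_nonneg_left (rpow_le_rpow_of_exponent_le (by norm_num) hexp) (by positivity)

end Vale.Agent.P057

namespace Vale.Agent.Results.P057.RankinRefined

open Finset Real Vale.Agent.P057

theorem result (n k : ℕ) (hn : 3 ≤ n) (hk : 2 ^ (n - 1) < k) :
    ((n : ℝ) * (2 : ℝ) ^ (((n : ℝ) - 1) / 2) * (Real.logb 2 (12 / 7)) ^ ((1 : ℝ) / n)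
        < (n : ℝ) * (2 : ℝ) ^ (((n : ℝ) - 1) / 2) ∧
      ∀ C : ℝ, (n : ℝ) * (2 : ℝ) ^ (((n : ℝ) - 1) / 2) *
          (Real.logb 2 (12 / 7)) ^ ((1 : ℝ) / n) < C →
        ∃ N₀ : ℕ, ∀ N : ℕ, N₀ ≤ N → ∃ A : Finset ℕ, A ⊆ Finset.Icc 1 N ∧
          (∀ a e : ℕ, 0 < e → ∃ i < k, a + i * e ∉ A) ∧
          (N : ℝ) * (2 : ℝ) ^ (-(C * (Real.logb 2 N) ^ ((1 : ℝ) / n))) ≤ (A.card : ℝ)) ∧
    (3 * 2 ^ (n - 2) + 2 ≤ k →
      Real.logb 2 ((2 ^ (n - 2) + 1).choose ((2 ^ (n - 2) + 1) / 2) : ℝ) / 2 ^ (n - 2) < 1 ∧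
      ∀ C : ℝ, (n : ℝ) * (2 : ℝ) ^ (((n : ℝ) - 1) / 2) *
          (Real.logb 2 (12 / 7) *
            (Real.logb 2 ((2 ^ (n - 2) + 1).choose ((2 ^ (n - 2) + 1) / 2) : ℝ) / 2 ^ (n - 2)))
              ^ ((1 : ℝ) / n) < C →
        ∃ N₀ : ℕ, ∀ N : ℕ, N₀ ≤ N → ∃ A : Finset ℕ, A ⊆ Finset.Icc 1 N ∧
          (∀ a e : ℕ, 0 < e → ∃ i < k, a + i * e ∉ A) ∧
          (N : ℝ) * (2 : ℝ) ^ (-(C * (Real.logb 2 N) ^ ((1 : ℝ) / n))) ≤ (A.card : ℝ)) := by
  have hk' : 2 * 2 ^ (n - 2) < k := by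
    have h : 2 ^ (n - 1) = 2 * 2 ^ (n - 2) := by
      rw [show n - 1 = n - 2 + 1 by omega, pow_succ, mul_comm]
    omega
  have hd2 : 2 ≤ 2 ^ (n - 2) :=
    le_trans (by norm_num) (Nat.pow_le_pow_right (show 0 < 2 by norm_num) (show 1 ≤ n - 2 by omega))
  refine ⟨⟨?_, fun C hC => ?_⟩, fun hwide => ⟨?_, fun C hC => ?_⟩⟩
  · refine mul_lt_of_lt_one_right (mul_pos (by exact_mod_cast (show 0 < n by omega))
      (Real.rpow_pos_of_pos (by norm_num) _)) ?_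
    refine Real.rpow_lt_one (Real.logb_nonneg (by norm_num) (by norm_num)) ?_
      (one_div_pos.2 (by exact_mod_cast (show 0 < n by omega)))
    rw [Real.logb_lt_iff_lt_rpow (by norm_num) (by norm_num), Real.rpow_one]
    norm_num
  · refine bound_of_core n k (2 ^ (2 ^ (n - 2))) hn
      (le_trans (by norm_num) (Nat.pow_le_pow_right (show 0 < 2 by norm_num) hd2))
      (core_narrow k _ (by omega)) hk' C ?_
    have h : Real.logb 2 (((2 ^ (2 ^ (n - 2)) : ℕ)) : ℝ) / 2 ^ (n - 2) = 1 := by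
      rw [Nat.cast_pow, Nat.cast_ofNat, Real.logb_pow, Real.logb_self_eq_one (by norm_num), mul_one,
        Nat.cast_pow, Nat.cast_ofNat, div_self (by positivity)]
    rw [h, mul_one]
    exact hC
  · have h1 := choose_succ_lt _ hd2 ((2 ^ (n - 2) + 1) / 2)
    have hpos : 0 < (2 ^ (n - 2) + 1).choose ((2 ^ (n - 2) + 1) / 2) :=
      Nat.choose_pos (Nat.div_le_self _ _)
    rw [div_lt_one (by positivity), Real.logb_lt_iff_lt_rpow (by norm_num) (by exact_mod_cast hpos),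
      show ((2 : ℝ) ^ (n - 2)) = ((2 ^ (n - 2) : ℕ) : ℝ) by push_cast; rfl, Real.rpow_natCast]
    exact_mod_cast h1
  · refine bound_of_core n k _ hn ?_ (core_wide k _ hwide) hk' C hC
    have h1 := Nat.choose_le_middle 1 (2 ^ (n - 2) + 1)
    rw [Nat.choose_one_right] at h1
    omega

end Vale.Agent.Results.P057.RankinRefined
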